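import Vale.Agent.N337A.Defs
import Vale.Agent.N337A.Final

namespace Vale.Agent.Results.P337.A0Alternations

open Vale.Agent.P337T Vale.Agent.N337A

/-- The true prenex sentences over the reals with any fixed prefix of blocks of universal,
existential and counting quantifiers lie in the counting hierarchy. -/
theorem result (q : List Qu) : Th q ∈ CH ∧ ∃ j : ℕ, Red (Th q) ⊆ C j := main q

end Vale.Agent.Results.P337.A0Alternations
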