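import Vale.Agent.P337T.Defs
import Vale.Agent.N47.Final

namespace Vale.Agent.Results.P337.A0InC4

open Vale.Agent.P337T

/-- The existential theory of the reals lies in the fourth level of the counting hierarchy, and
so does every language of the class `∃ℝ`. -/
theorem result : ETR ∈ C 4 ∧ ExistsR ⊆ C 4 :=
  ⟨N47.tm_ETR_mem_C4, N47.tm_existsR_subset_C4⟩

end Vale.Agent.Results.P337.A0InC4
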