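import Vale.Agent.N337.WDefs
import Vale.Agent.N337.Search

namespace Vale.Agent.Results.P337.A0Search

open Vale.Agent.P337T Vale.Agent.N337

/-- (1) Search form: one solution of every satisfiable formula is chosen in such a way that the
formulas which are true at the chosen solution are recognised in the counting hierarchy.
(2) It is decided in the counting hierarchy whether an exponential sum of polynomials has a real
zero. -/
theorem result :
    (∃ sol : (n : ℕ) → Formula n → Fin n → ℝ,
      (∀ (n : ℕ) (φ : Formula n), (∃ x, φ.Holds x) → φ.Holds (sol n φ)) ∧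
      {w | ∃ (n : ℕ) (φ ψ : Formula n), w = pair (sentenceCode n φ) (sentenceCode n ψ) ∧
        φ.Holds (sol n φ) ∧ ψ.Holds (sol n φ)} ∈ ⋃ j, W j) ∧
    ∀ (f : List Bool → List Bool) (T : Polynomial ℕ)
      (p : (w : List Bool) → List Bool → Poly (T.eval w.length)),
      PolyTime f → (∀ w e, f (pair w e) = polyCode (p w e)) →
      {w : List Bool | ∃ x : Fin (T.eval w.length) → ℝ,
        ∑ e : Fin (T.eval w.length) → Bool, (p w (List.ofFn e)).eval x = 0} ∈ ⋃ j, W j :=
  ⟨search, fun _ _ _ => expSum⟩

end Vale.Agent.Results.P337.A0Search
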